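import Vale.Agent.P355.H790S.B0
import Vale.Agent.P355.H790S.B1
import Vale.Agent.P355.H790S.B2
import Vale.Agent.P355.H790S.B3
import Vale.Agent.P355.H790S.B4
import Vale.Agent.P355.H790S.B5

/-! All bridge records together. -/

namespace Vale.Agent.P355.H790S

open Vale.Agent.P355

def oT : List (ℕ × ℕ) := B0.out ++ (B1.out ++ (B2.out ++ (B3.out ++ (B4.out ++ (B5.out)))))

theorem eP : B0.Pc + (B1.Pc + (B2.Pc + (B3.Pc + (B4.Pc + (B5.Pc))))) = PT := by decide +kernel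
theorem eQ : B0.Qc + (B1.Qc + (B2.Qc + (B3.Qc + (B4.Qc + (B5.Qc))))) = QT := by decide +kernel
theorem eM : B0.Mc + (B1.Mc + (B2.Mc + (B3.Mc + (B4.Mc + (B5.Mc))))) = MB := by decide +kernel

theorem br4 (x : Fin 7 → Fin 7 → ℂ) (hx : H138.Good false x) (_hN : H182.N7x x) :
    H693W.BrK 4 46656 x 80 tr Vale.Agent.P355.H950S.ct oT PT QT MB := by
  rw [← eP, ← eQ, ← eM]
  exact ((H790.Br4.brK_of_ckP hx.1 B0.ck).app ((H790.Br4.brK_of_ckP hx.1 B1.ck).app ((H790.Br4.brK_of_ckP hx.1 B2.ck).app ((H790.Br4.brK_of_ckP hx.1 B3.ck).app ((H790.Br4.brK_of_ckP hx.1 B4.ck).app (H790.Br4.brK_of_ckP hx.1 B5.ck))))))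

end Vale.Agent.P355.H790S
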